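import Vale.Agent.P071.AnnSector.Cartesian

/-!
# Hot spots for annular sectors
-/

namespace Vale.Agent.Results.P071.AnnularSectors

open Vale.Agent.P071.AnnSector Set

/-- Strict hot spots inequality for every Rayleigh minimiser on every annular sector
`a < r < b`, `|θ| < h`, with `0 < a` and `h < π`, convex or not. -/
theorem result :
    ∀ a b h : ℝ, 0 < a → a < b → 0 < h → h < Real.pi → ∀ u : ℝ × ℝ → ℝ,
      IsNeumannMinimizer (annSector a b h) u → ∀ x ∈ annSector a b h,
        (∃ p ∈ frontier (annSector a b h), u p < u x) ∧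
        (∃ q ∈ frontier (annSector a b h), u x < u q) := by
  intro a b h ha hab hh hπ u hu x hx
  obtain ⟨p, hp, hlt⟩ := upper_strict ha hab hh hπ (minimizer_neg hu) hx
  exact ⟨⟨p, hp, neg_lt_neg_iff.1 hlt⟩, upper_strict ha hab hh hπ hu hx⟩

end Vale.Agent.Results.P071.AnnularSectors
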